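import Vale.Agent.P032.H594.KA
import Vale.Agent.P032.H594.KB
import Vale.Agent.P032.H594.KC
import Vale.Agent.P032.H594.KD
import Vale.Agent.P032.H594.KE
import Vale.Agent.P032.H594.KF
import Vale.Agent.P032.H546.FFin

/-!
# P032: impossible numbers of ends at a centre with a `J`-partner (kernel certificates)

`noF_12J2` .. : a centre with a `J`-partner (label `6`) in the direction of the zone line has not
these numbers of ends.
-/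

open Set Filter Topology Metric

noncomputable section

namespace Vale.Agent.P032.H594

open Vale.Agent.P032.Six Vale.Agent.P032.S5.H767 Vale.Agent.P032.S5.H349
open Vale.Agent.P032.H987 hiding lb
open Vale.Agent.P032.H546

theorem ccR594 : ∀ k, k < 4 → ckF evR wpR (zn k) (zn k) (FC (clR k)) = true := by
  intro k hk
  have h4 : k = 0 ∨ k = 1 ∨ k = 2 ∨ k = 3 := by omega
  rcases h4 with rfl | rfl | rfl | rfl
  exacts [cclR0, cclR1, cclR2, cclR3]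

theorem sysF12J2 : Sys F12J2.P evF wpF F12J2.Q clF where
  c01 := ⟨_, _, _, _, _, _, by norm_num, ⟨F12J2.pa01, F12J2.mi01, F12J2.pb01, F12J2.st01, F12J2.en01⟩⟩
  c11 := ⟨_, _, _, _, _, _, by norm_num, ⟨F12J2.pa11, F12J2.mi11, F12J2.pb11, F12J2.st11, F12J2.en11⟩⟩
  c21 := ⟨_, _, _, _, _, _, by norm_num, ⟨F12J2.pa21, F12J2.mi21, F12J2.pb21, F12J2.st21, F12J2.en21⟩⟩
  c10 := ⟨_, _, _, _, by norm_num, ⟨F12J2.ph10, F12J2.st10, F12J2.en10⟩⟩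
  c20 := ⟨_, _, _, _, by norm_num, ⟨F12J2.ph20, F12J2.st20, F12J2.en20⟩⟩
  mok := F12J2.mok
  bnd := by decide
  cc := ccF

theorem sysF21J2 : Sys F21J2.P evF wpF F21J2.Q clF where
  c01 := ⟨_, _, _, _, _, _, by norm_num, ⟨F21J2.pa01, F21J2.mi01, F21J2.pb01, F21J2.st01, F21J2.en01⟩⟩
  c11 := ⟨_, _, _, _, _, _, by norm_num, ⟨F21J2.pa11, F21J2.mi11, F21J2.pb11, F21J2.st11, F21J2.en11⟩⟩
  c21 := ⟨_, _, _, _, _, _, by norm_num, ⟨F21J2.pa21, F21J2.mi21, F21J2.pb21, F21J2.st21, F21J2.en21⟩⟩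
  c10 := ⟨_, _, _, _, by norm_num, ⟨F21J2.ph10, F21J2.st10, F21J2.en10⟩⟩
  c20 := ⟨_, _, _, _, by norm_num, ⟨F21J2.ph20, F21J2.st20, F21J2.en20⟩⟩
  mok := F21J2.mok
  bnd := by decide
  cc := ccF

theorem sysF00aJ2 : Sys F00aJ2.P evF wpF F00aJ2.Q clF where
  c01 := ⟨_, _, _, _, _, _, by norm_num, ⟨F00aJ2.pa01, F00aJ2.mi01, F00aJ2.pb01, F00aJ2.st01, F00aJ2.en01⟩⟩
  c11 := ⟨_, _, _, _, _, _, by norm_num, ⟨F00aJ2.pa11, F00aJ2.mi11, F00aJ2.pb11, F00aJ2.st11, F00aJ2.en11⟩⟩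
  c21 := ⟨_, _, _, _, _, _, by norm_num, ⟨F00aJ2.pa21, F00aJ2.mi21, F00aJ2.pb21, F00aJ2.st21, F00aJ2.en21⟩⟩
  c10 := ⟨_, _, _, _, by norm_num, ⟨F00aJ2.ph10, F00aJ2.st10, F00aJ2.en10⟩⟩
  c20 := ⟨_, _, _, _, by norm_num, ⟨F00aJ2.ph20, F00aJ2.st20, F00aJ2.en20⟩⟩
  mok := F00aJ2.mok
  bnd := by decide
  cc := ccF

theorem sysF00bJ2 : Sys F00bJ2.P evF wpF F00bJ2.Q clF where
  c01 := ⟨_, _, _, _, _, _, by norm_num, ⟨F00bJ2.pa01, F00bJ2.mi01, F00bJ2.pb01, F00bJ2.st01, F00bJ2.en01⟩⟩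
  c11 := ⟨_, _, _, _, _, _, by norm_num, ⟨F00bJ2.pa11, F00bJ2.mi11, F00bJ2.pb11, F00bJ2.st11, F00bJ2.en11⟩⟩
  c21 := ⟨_, _, _, _, _, _, by norm_num, ⟨F00bJ2.pa21, F00bJ2.mi21, F00bJ2.pb21, F00bJ2.st21, F00bJ2.en21⟩⟩
  c10 := ⟨_, _, _, _, by norm_num, ⟨F00bJ2.ph10, F00bJ2.st10, F00bJ2.en10⟩⟩
  c20 := ⟨_, _, _, _, by norm_num, ⟨F00bJ2.ph20, F00bJ2.st20, F00bJ2.en20⟩⟩
  mok := F00bJ2.mok
  bnd := by decide
  cc := ccF

theorem sysS12J2 : Sys S12J2.P evS wpS S12J2.Q clS where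
  c01 := ⟨_, _, _, _, _, _, by norm_num, ⟨S12J2.pa01, S12J2.mi01, S12J2.pb01, S12J2.st01, S12J2.en01⟩⟩
  c11 := ⟨_, _, _, _, _, _, by norm_num, ⟨S12J2.pa11, S12J2.mi11, S12J2.pb11, S12J2.st11, S12J2.en11⟩⟩
  c21 := ⟨_, _, _, _, _, _, by norm_num, ⟨S12J2.pa21, S12J2.mi21, S12J2.pb21, S12J2.st21, S12J2.en21⟩⟩
  c10 := ⟨_, _, _, _, by norm_num, ⟨S12J2.ph10, S12J2.st10, S12J2.en10⟩⟩
  c20 := ⟨_, _, _, _, by norm_num, ⟨S12J2.ph20, S12J2.st20, S12J2.en20⟩⟩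
  mok := S12J2.mok
  bnd := by decide
  cc := ccS

theorem sysS21J2 : Sys S21J2.P evS wpS S21J2.Q clS where
  c01 := ⟨_, _, _, _, _, _, by norm_num, ⟨S21J2.pa01, S21J2.mi01, S21J2.pb01, S21J2.st01, S21J2.en01⟩⟩
  c11 := ⟨_, _, _, _, _, _, by norm_num, ⟨S21J2.pa11, S21J2.mi11, S21J2.pb11, S21J2.st11, S21J2.en11⟩⟩
  c21 := ⟨_, _, _, _, _, _, by norm_num, ⟨S21J2.pa21, S21J2.mi21, S21J2.pb21, S21J2.st21, S21J2.en21⟩⟩
  c10 := ⟨_, _, _, _, by norm_num, ⟨S21J2.ph10, S21J2.st10, S21J2.en10⟩⟩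
  c20 := ⟨_, _, _, _, by norm_num, ⟨S21J2.ph20, S21J2.st20, S21J2.en20⟩⟩
  mok := S21J2.mok
  bnd := by decide
  cc := ccS

theorem sysR12J2 : Sys R12J2.P evR wpR R12J2.Q clR where
  c01 := ⟨_, _, _, _, _, _, by norm_num, ⟨R12J2.pa01, R12J2.mi01, R12J2.pb01, R12J2.st01, R12J2.en01⟩⟩
  c11 := ⟨_, _, _, _, _, _, by norm_num, ⟨R12J2.pa11, R12J2.mi11, R12J2.pb11, R12J2.st11, R12J2.en11⟩⟩
  c21 := ⟨_, _, _, _, _, _, by norm_num, ⟨R12J2.pa21, R12J2.mi21, R12J2.pb21, R12J2.st21, R12J2.en21⟩⟩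
  c10 := ⟨_, _, _, _, by norm_num, ⟨R12J2.ph10, R12J2.st10, R12J2.en10⟩⟩
  c20 := ⟨_, _, _, _, by norm_num, ⟨R12J2.ph20, R12J2.st20, R12J2.en20⟩⟩
  mok := R12J2.mok
  bnd := by decide
  cc := ccR594

theorem sysR21J2 : Sys R21J2.P evR wpR R21J2.Q clR where
  c01 := ⟨_, _, _, _, _, _, by norm_num, ⟨R21J2.pa01, R21J2.mi01, R21J2.pb01, R21J2.st01, R21J2.en01⟩⟩
  c11 := ⟨_, _, _, _, _, _, by norm_num, ⟨R21J2.pa11, R21J2.mi11, R21J2.pb11, R21J2.st11, R21J2.en11⟩⟩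
  c21 := ⟨_, _, _, _, _, _, by norm_num, ⟨R21J2.pa21, R21J2.mi21, R21J2.pb21, R21J2.st21, R21J2.en21⟩⟩
  c10 := ⟨_, _, _, _, by norm_num, ⟨R21J2.ph10, R21J2.st10, R21J2.en10⟩⟩
  c20 := ⟨_, _, _, _, by norm_num, ⟨R21J2.ph20, R21J2.st20, R21J2.en20⟩⟩
  mok := R21J2.mok
  bnd := by decide
  cc := ccR594

theorem sysS21J1 : Sys S21J1.P evS wpS S21J1.Q clS where
  c01 := ⟨_, _, _, _, _, _, by norm_num, ⟨S21J1.pa01, S21J1.mi01, S21J1.pb01, S21J1.st01, S21J1.en01⟩⟩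
  c11 := ⟨_, _, _, _, _, _, by norm_num, ⟨S21J1.pa11, S21J1.mi11, S21J1.pb11, S21J1.st11, S21J1.en11⟩⟩
  c21 := ⟨_, _, _, _, _, _, by norm_num, ⟨S21J1.pa21, S21J1.mi21, S21J1.pb21, S21J1.st21, S21J1.en21⟩⟩
  c10 := ⟨_, _, _, _, by norm_num, ⟨S21J1.ph10, S21J1.st10, S21J1.en10⟩⟩
  c20 := ⟨_, _, _, _, by norm_num, ⟨S21J1.ph20, S21J1.st20, S21J1.en20⟩⟩
  mok := S21J1.mok
  bnd := by decide
  cc := ccS

theorem sysR12J1 : Sys R12J1.P evR wpR R12J1.Q clR where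
  c01 := ⟨_, _, _, _, _, _, by norm_num, ⟨R12J1.pa01, R12J1.mi01, R12J1.pb01, R12J1.st01, R12J1.en01⟩⟩
  c11 := ⟨_, _, _, _, _, _, by norm_num, ⟨R12J1.pa11, R12J1.mi11, R12J1.pb11, R12J1.st11, R12J1.en11⟩⟩
  c21 := ⟨_, _, _, _, _, _, by norm_num, ⟨R12J1.pa21, R12J1.mi21, R12J1.pb21, R12J1.st21, R12J1.en21⟩⟩
  c10 := ⟨_, _, _, _, by norm_num, ⟨R12J1.ph10, R12J1.st10, R12J1.en10⟩⟩
  c20 := ⟨_, _, _, _, by norm_num, ⟨R12J1.ph20, R12J1.st20, R12J1.en20⟩⟩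
  mok := R12J1.mok
  bnd := by decide
  cc := ccR594

theorem sysF00aJ1 : Sys F00aJ1.P evF wpF F00aJ1.Q clF where
  c01 := ⟨_, _, _, _, _, _, by norm_num, ⟨F00aJ1.pa01, F00aJ1.mi01, F00aJ1.pb01, F00aJ1.st01, F00aJ1.en01⟩⟩
  c11 := ⟨_, _, _, _, _, _, by norm_num, ⟨F00aJ1.pa11, F00aJ1.mi11, F00aJ1.pb11, F00aJ1.st11, F00aJ1.en11⟩⟩
  c21 := ⟨_, _, _, _, _, _, by norm_num, ⟨F00aJ1.pa21, F00aJ1.mi21, F00aJ1.pb21, F00aJ1.st21, F00aJ1.en21⟩⟩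
  c10 := ⟨_, _, _, _, by norm_num, ⟨F00aJ1.ph10, F00aJ1.st10, F00aJ1.en10⟩⟩
  c20 := ⟨_, _, _, _, by norm_num, ⟨F00aJ1.ph20, F00aJ1.st20, F00aJ1.en20⟩⟩
  mok := F00aJ1.mok
  bnd := by decide
  cc := ccF

theorem sysF00bJ1 : Sys F00bJ1.P evF wpF F00bJ1.Q clF where
  c01 := ⟨_, _, _, _, _, _, by norm_num, ⟨F00bJ1.pa01, F00bJ1.mi01, F00bJ1.pb01, F00bJ1.st01, F00bJ1.en01⟩⟩
  c11 := ⟨_, _, _, _, _, _, by norm_num, ⟨F00bJ1.pa11, F00bJ1.mi11, F00bJ1.pb11, F00bJ1.st11, F00bJ1.en11⟩⟩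
  c21 := ⟨_, _, _, _, _, _, by norm_num, ⟨F00bJ1.pa21, F00bJ1.mi21, F00bJ1.pb21, F00bJ1.st21, F00bJ1.en21⟩⟩
  c10 := ⟨_, _, _, _, by norm_num, ⟨F00bJ1.ph10, F00bJ1.st10, F00bJ1.en10⟩⟩
  c20 := ⟨_, _, _, _, by norm_num, ⟨F00bJ1.ph20, F00bJ1.st20, F00bJ1.en20⟩⟩
  mok := F00bJ1.mok
  bnd := by decide
  cc := ccF

theorem sysF1122J1 : Sys F1122J1.P evF wpF F1122J1.Q clF where
  c01 := ⟨_, _, _, _, _, _, by norm_num, ⟨F1122J1.pa01, F1122J1.mi01, F1122J1.pb01, F1122J1.st01, F1122J1.en01⟩⟩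
  c11 := ⟨_, _, _, _, _, _, by norm_num, ⟨F1122J1.pa11, F1122J1.mi11, F1122J1.pb11, F1122J1.st11, F1122J1.en11⟩⟩
  c21 := ⟨_, _, _, _, _, _, by norm_num, ⟨F1122J1.pa21, F1122J1.mi21, F1122J1.pb21, F1122J1.st21, F1122J1.en21⟩⟩
  c10 := ⟨_, _, _, _, by norm_num, ⟨F1122J1.ph10, F1122J1.st10, F1122J1.en10⟩⟩
  c20 := ⟨_, _, _, _, by norm_num, ⟨F1122J1.ph20, F1122J1.st20, F1122J1.en20⟩⟩
  mok := F1122J1.mok
  bnd := by decide
  cc := ccF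

theorem sysF2211J1 : Sys F2211J1.P evF wpF F2211J1.Q clF where
  c01 := ⟨_, _, _, _, _, _, by norm_num, ⟨F2211J1.pa01, F2211J1.mi01, F2211J1.pb01, F2211J1.st01, F2211J1.en01⟩⟩
  c11 := ⟨_, _, _, _, _, _, by norm_num, ⟨F2211J1.pa11, F2211J1.mi11, F2211J1.pb11, F2211J1.st11, F2211J1.en11⟩⟩
  c21 := ⟨_, _, _, _, _, _, by norm_num, ⟨F2211J1.pa21, F2211J1.mi21, F2211J1.pb21, F2211J1.st21, F2211J1.en21⟩⟩
  c10 := ⟨_, _, _, _, by norm_num, ⟨F2211J1.ph10, F2211J1.st10, F2211J1.en10⟩⟩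
  c20 := ⟨_, _, _, _, by norm_num, ⟨F2211J1.ph20, F2211J1.st20, F2211J1.en20⟩⟩
  mok := F2211J1.mok
  bnd := by decide
  cc := ccF

/-! ### The centres -/

variable {U : Fin 6 → Set ℂ} {T : ℂ → Set (Fin 6)} {z : ℂ} {a b c d e f : Fin 6} {p q : ℝ}
  {g1 g2 : Bool}

/-- the labels `7`, `8` do not occur if the flag is `false` -/
theorem lbF_falseR594 (y : ℂ) : lbF false true T z a b c d e f y ≠ 7 ∧
    lbF false true T z a b c d e f y ≠ 8 := by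
  unfold lbF
  by_cases h1 : T y = T z
  · rw [if_pos h1]; split_ifs <;> decide
  by_cases h2 : T y = {a, b, e}
  · rw [if_neg h1, if_pos h2]; split_ifs <;> decide
  by_cases h3 : T y = {c, d, f}
  · rw [if_neg h1, if_neg h2, if_pos h3]; split_ifs <;> decide
  rw [if_neg h1, if_neg h2, if_neg h3, if_neg (by simp)]
  by_cases h4 : true = true ∧ T y = {c, d, e} ∧ y ∈ closure (Ex T z {c, d})
  · rw [if_pos h4]; split_ifs <;> decide
  · rw [if_neg h4]; decide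

/-- all ends labelled -/
theorem no_F594 {P : Pr} {Q : ℕ → Bool} (Y : Sys P evF wpF Q clF) (hQ : ∀ x, Q x = false)
    (S : CzF true true U T z a b c d e f) (Z : Zn T z a b c d p q)
    (hfin : {y | dist y z = 1 ∧ lbF true true T z a b c d e f y ≠ 0}.Finite)
    (C : Cnt T z a b c d e f (P.tt 0) (P.tt 1) (P.tt 2) (P.tt 3) (P.tt 4))
    (hJ : lbF true true T z a b c d e f (pt z p) = 6) : False := by
  obtain ⟨L, -, -, -, h1, -⟩ := words_of S Z hfin labOK_F (fun _ => trivial) Y hJ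
    (Cnt.hn S.nd S.four (n := P.tt) C)
  rw [hQ] at h1
  exact Bool.noConfusion h1

/-- the labels `9`, `10` free -/
theorem no_S594 {P : Pr} {Q : ℕ → Bool} (Y : Sys P evS wpS Q clS) (hQ : ∀ x, Q x = false)
    (S : CzF true false U T z a b c d e f) (Z : Zn T z a b c d p q)
    (hfin : {y | dist y z = 1 ∧ lbF true false T z a b c d e f y ≠ 0}.Finite)
    (nV : {y | dist y z = 1 ∧ T y = {a, b, e}}.ncard = P.tt 0)
    (nQ : {y | dist y z = 1 ∧ T y = {c, d, f}}.ncard = P.tt 3)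
    (nJ : {y | dist y z = 1 ∧ T y = T z}.ncard = P.tt 4) (t1 : P.tt 1 = 0) (t2 : P.tt 2 = 0)
    (hno : ∀ y, dist y z = 1 → T y ≠ {a, b, f})
    (hJ : lbF true false T z a b c d e f (pt z p) = 6) : False := by
  have nd := S.nd
  have h4 := S.four
  obtain ⟨L, -, -, -, h1, -⟩ := words_of S Z hfin labOK_S (fun y => lbF_false y) Y hJ
    (fun i => by
      fin_cases i
      · show {y | dist y z = 1 ∧ ind 0 (lbF true false T z a b c d e f y).val ≠ 0}.ncard = P.tt 0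
        simp only [ind0_iff h4]
        exact nV
      · show {y | dist y z = 1 ∧ ind 1 (lbF true false T z a b c d e f y).val ≠ 0}.ncard = P.tt 1
        simp only [ind1_iff nd h4, true_and]
        rw [show {y | dist y z = 1 ∧ T y = {a, b, f} ∧ y ∈ closure (Ex T z {a, b})} = ∅ from
          Set.eq_empty_iff_forall_notMem.2 fun y hy => hno y hy.1 hy.2.1, t1]
        exact Set.ncard_empty _
      · show {y | dist y z = 1 ∧ ind 2 (lbF true false T z a b c d e f y).val ≠ 0}.ncard = P.tt 2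
        simp only [ind2_iff nd h4, Bool.false_eq_true, false_and, and_false]
        rw [t2]
        exact Set.ncard_empty _
      · show {y | dist y z = 1 ∧ ind 3 (lbF true false T z a b c d e f y).val ≠ 0}.ncard = P.tt 3
        simp only [ind3_iff nd h4]
        exact nQ
      · show {y | dist y z = 1 ∧ ind 4 (lbF true false T z a b c d e f y).val ≠ 0}.ncard = P.tt 4
        simp only [ind4_iff]
        exact nJ)
  rw [hQ] at h1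
  exact Bool.noConfusion h1

/-- the labels `7`, `8` free -/
theorem no_R594 {P : Pr} {Q : ℕ → Bool} (Y : Sys P evR wpR Q clR) (hQ : ∀ x, Q x = false)
    (S : CzF false true U T z a b c d e f) (Z : Zn T z a b c d p q)
    (hfin : {y | dist y z = 1 ∧ lbF false true T z a b c d e f y ≠ 0}.Finite)
    (nV : {y | dist y z = 1 ∧ T y = {a, b, e}}.ncard = P.tt 0)
    (nQ : {y | dist y z = 1 ∧ T y = {c, d, f}}.ncard = P.tt 3)
    (nJ : {y | dist y z = 1 ∧ T y = T z}.ncard = P.tt 4) (t1 : P.tt 1 = 0) (t2 : P.tt 2 = 0)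
    (hno : ∀ y, dist y z = 1 → T y ≠ {c, d, e})
    (hJ : lbF false true T z a b c d e f (pt z p) = 6) : False := by
  have nd := S.nd
  have h4 := S.four
  obtain ⟨L, -, -, -, h1, -⟩ := words_of S Z hfin labOK_R (fun y => lbF_falseR594 y) Y hJ
    (fun i => by
      fin_cases i
      · show {y | dist y z = 1 ∧ ind 0 (lbF false true T z a b c d e f y).val ≠ 0}.ncard = P.tt 0
        simp only [ind0_iff h4]
        exact nV
      · show {y | dist y z = 1 ∧ ind 1 (lbF false true T z a b c d e f y).val ≠ 0}.ncard = P.tt 1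
        simp only [ind1_iff nd h4, Bool.false_eq_true, false_and, and_false]
        rw [t1]
        exact Set.ncard_empty _
      · show {y | dist y z = 1 ∧ ind 2 (lbF false true T z a b c d e f y).val ≠ 0}.ncard = P.tt 2
        simp only [ind2_iff nd h4, true_and]
        rw [show {y | dist y z = 1 ∧ T y = {c, d, e} ∧ y ∈ closure (Ex T z {c, d})} = ∅ from
          Set.eq_empty_iff_forall_notMem.2 fun y hy => hno y hy.1 hy.2.1, t2]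
        exact Set.ncard_empty _
      · show {y | dist y z = 1 ∧ ind 3 (lbF false true T z a b c d e f y).val ≠ 0}.ncard = P.tt 3
        simp only [ind3_iff nd h4]
        exact nQ
      · show {y | dist y z = 1 ∧ ind 4 (lbF false true T z a b c d e f y).val ≠ 0}.ncard = P.tt 4
        simp only [ind4_iff]
        exact nJ)
  rw [hQ] at h1
  exact Bool.noConfusion h1

end Vale.Agent.P032.H594
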